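import Vale.Agent.Lib.P064.helper49.Attached

/-!
# Rooted count in hosts of bounded degree

If every vertex of `T \ X` can be reached from `X` inside `T` along edges of the pattern `F`
(`Attached F X T`), then an embedding of `X` into a host `H` of maximum degree at most `D` has
at most `D ^ |T \ X|` extensions to `T`, and `F` has at least `|T \ X|` extension edges.
-/

namespace Vale.Agent.Lib.P064.H14

open Finset SimpleGraph Vale.Agent.KK Vale.Agent.KK.LS Vale.Agent.Lib.P064.LS
open Vale.Agent.Lib.P064.H49

variable {V W : Type*} [Fintype V] [Fintype W] [DecidableEq W]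

omit [Fintype W] in
/-- the new-vertex set loses one element when a vertex of it is moved to the base -/
theorem card_sdiff_insert {X T : Finset W} {z : W} (hz : z ∈ T \ X) {k : ℕ}
    (hk : (T \ X).card = k + 1) : (T \ insert z X).card = k := by
  have h1 : T \ insert z X = (T \ X).erase z := by
    ext w
    simp only [Finset.mem_sdiff, Finset.mem_insert, Finset.mem_erase]
    tauto
  rw [h1, Finset.card_erase_of_mem hz, hk]
  rfl

theorem rooted_count (H : SimpleGraph V) (F : SimpleGraph W) (D : ℕ)
    (hdeg : ∀ v : V, ∀ N : Finset V, (∀ u ∈ N, H.Adj v u) → N.card ≤ D) :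
    ∀ (k : ℕ) (X T : Finset W), X ⊆ T → (T \ X).card = k → Attached F X T →
      ∀ ψ : W → V, (Ext F H X T ψ).card ≤ D ^ k := by
  classical
  intro k
  induction k with
  | zero =>
    intro X T hXT hk _ ψ
    have hTX : T ⊆ X := Finset.sdiff_eq_empty_iff_subset.1 (Finset.card_eq_zero.1 hk)
    have hEq : X = T := Finset.Subset.antisymm hXT hTX
    subst hEq
    simpa using Ext_self_card F H X ψ
  | succ k ih =>
    intro X T hXT hk hA ψ
    have hne : X ≠ T := by
      intro h
      rw [h, Finset.sdiff_self] at hk
      simp at hk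
    have hss : X ⊂ T := Finset.ssubset_iff_subset_ne.2 ⟨hXT, hne⟩
    obtain ⟨z, hz, y, hy, hyz⟩ := hA X (Finset.Subset.refl X) hss
    have hzT : z ∈ T := (Finset.mem_sdiff.1 hz).1
    have hzX : z ∉ X := (Finset.mem_sdiff.1 hz).2
    have hyT : y ∈ T := hXT hy
    set N : Finset V := (Ext F H X T ψ).image (fun φ => φ z) with hN
    have hNcard : N.card ≤ D := by
      apply hdeg (ψ y)
      intro u hu
      rw [hN, Finset.mem_image] at hu
      obtain ⟨φ, hφ, rfl⟩ := hu
      rw [mem_Ext] at hφ
      have h1 : φ y = ψ y := hφ.1 y (by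
        rw [Finset.mem_sdiff]
        exact fun h => h.2 hy)
      have h2 := hφ.2.2 y z hyz hyT hzT (Or.inr hzX)
      rw [h1] at h2
      exact h2
    have hsub : insert z X ⊆ T := Finset.insert_subset hzT hXT
    have hcard : (T \ insert z X).card = k := card_sdiff_insert hz hk
    have hcover : Ext F H X T ψ ⊆
        N.biUnion (fun v => Ext F H (insert z X) T (Function.update ψ z v)) := by
      intro φ hφ
      rw [Finset.mem_biUnion]
      exact ⟨φ z, Finset.mem_image_of_mem _ hφ, Ext_update F H hφ hz⟩
    have hpiece : ∀ v ∈ N, (Ext F H (insert z X) T (Function.update ψ z v)).card ≤ D ^ k :=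
      fun v _ => ih (insert z X) T hsub hcard (hA.insert z) (Function.update ψ z v)
    calc (Ext F H X T ψ).card ≤ _ := Finset.card_le_card hcover
      _ ≤ N.card * D ^ k := Finset.card_biUnion_le_card_mul _ _ _ hpiece
      _ ≤ D * D ^ k := Nat.mul_le_mul_right _ hNcard
      _ = D ^ (k + 1) := by ring

theorem attached_card_le (F : SimpleGraph W) :
    ∀ (k : ℕ) (X T : Finset W), X ⊆ T → (T \ X).card = k → Attached F X T →
      k ≤ (extEdges F X T).card := by
  classical
  intro k
  induction k with
  | zero =>
    intro X T _ _ _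
    exact Nat.zero_le _
  | succ k ih =>
    intro X T hXT hk hA
    have hne : X ≠ T := by
      intro h
      rw [h, Finset.sdiff_self] at hk
      simp at hk
    have hss : X ⊂ T := Finset.ssubset_iff_subset_ne.2 ⟨hXT, hne⟩
    obtain ⟨z, hz, y, hy, hyz⟩ := hA X (Finset.Subset.refl X) hss
    have hzT : z ∈ T := (Finset.mem_sdiff.1 hz).1
    have hzX : z ∉ X := (Finset.mem_sdiff.1 hz).2
    have hsub : insert z X ⊆ T := Finset.insert_subset hzT hXT
    have hcard : (T \ insert z X).card = k := card_sdiff_insert hz hk
    have h1 := extEdges_card_add F (Finset.subset_insert z X) hsub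
    have h2 : 1 ≤ (extEdges F X (insert z X)).card := by
      apply Finset.card_pos.2
      refine ⟨s(y, z), ?_⟩
      rw [mem_extEdges]
      exact ⟨hyz, Finset.mem_insert_of_mem hy, Finset.mem_insert_self z X, Or.inr hzX⟩
    have h3 := ih (insert z X) T hsub hcard (hA.insert z)
    omega

end Vale.Agent.Lib.P064.H14
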